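import Vale.Agent.P365.Bdl.B1

/-!
# Two-dimensional localization: definitions of the combined theorem
-/

namespace Vale.Agent.P365.H951

open MeasureTheory ProbabilityTheory P365L

/-- the uniform law on `[-1, 1]` -/
noncomputable def U : Measure ℝ := cond volume (Set.Icc (-1) 1)

/-- `H = hop + V` has pure point spectrum: its eigenvectors span a dense subspace of `ℓ²(ℤ²)` -/
def PurePoint (V : Site → ℝ) : Prop :=
  (Submodule.span ℂ {u : L2 | ∃ E : ℝ, ∀ x : Site,
    hop (fun y => u y) x + ((V x : ℝ) : ℂ) * u x = (E : ℂ) * u x}).topologicalClosure = ⊤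

/-- every spectral measure of `H = hop + V` is carried by a countable set -/
def AtomicSpectrum (V : Site → ℝ) : Prop :=
  ∀ (ψ : L2) (μ : Measure ℝ), IsSpectralMeasure V ψ μ → ∃ S : Set ℝ, S.Countable ∧ μ Sᶜ = 0

/-- every spectral measure of `H = hop + V` is singular -/
def SingularSpectrum (V : Site → ℝ) : Prop :=
  ∀ (ψ : L2) (μ : Measure ℝ), IsSpectralMeasure V ψ μ → μ ⟂ₘ volume

/-- for `w` iid of law `ρ`, `c` iid standard Cauchy, independent of `w`, every `lam, kap > 0`:
almost surely `hop + lam (w + kap c)` has pure point spectrum -/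
def LocalizedCauchy (ρ : Measure ℝ) : Prop :=
  ∀ (Ω : Type) [MeasurableSpace Ω] (P : Measure Ω) [IsProbabilityMeasure P]
    (w c : Site → Ω → ℝ), (∀ x, Measurable (w x)) → (∀ x, Measurable (c x)) →
    iIndepFun w P → (∀ x, P.map (w x) = ρ) →
    iIndepFun c P → (∀ x, P.map (c x) = cauchyMeasure 0 1) →
    IndepFun (fun o x => w x o) (fun o x => c x o) P →
    ∀ lam : ℝ, 0 < lam → ∀ kap : ℝ, 0 < kap →
    ∀ᵐ o ∂P, PurePoint (fun x => lam * (w x o + kap * c x o)) ∧
      AtomicSpectrum (fun x => lam * (w x o + kap * c x o))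

/-- for an arbitrary random background `w` (no independence, no moments) and `c` iid standard
Cauchy, independent of `w`, every `gam > 0`: almost surely `hop + w + gam c` has no absolutely
continuous spectrum -/
def SingularForAllBackgrounds : Prop :=
  ∀ (Ω : Type) [MeasurableSpace Ω] (P : Measure Ω) [IsProbabilityMeasure P]
    (w c : Site → Ω → ℝ), (∀ x, Measurable (w x)) → (∀ x, Measurable (c x)) →
    iIndepFun c P → (∀ x, P.map (c x) = cauchyMeasure 0 1) →
    IndepFun (fun o x => w x o) (fun o x => c x o) P → ∀ gam : ℝ, 0 < gam →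
    ∀ᵐ o ∂P, SingularSpectrum (fun x => w x o + gam * c x o)

/-- the law of a coin which shows `true` with probability `p` -/
noncomputable def coin (p : ℝ) : Measure Bool :=
  ENNReal.ofReal (1 - p) • Measure.dirac false + ENNReal.ofReal p • Measure.dirac true

/-- almost sure localization for `hop + lam V` where, independently at each site `x`,
`V x = w x` with `w x` uniform on `[-1, 1]`, except that with probability `p` (when the coin
`b x` shows `true`) this value is replaced by an independent value `t x` of law `τ` -/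
def Resampled (p : ℝ) (τ : Measure ℝ) (lam : ℝ) : Prop :=
  ∀ (Ω : Type) [MeasurableSpace Ω] (P : Measure Ω) [IsProbabilityMeasure P]
    (w : Site → Ω → ℝ) (b : Site → Ω → Bool) (t : Site → Ω → ℝ),
    (∀ x, Measurable (w x)) → (∀ x, Measurable (b x)) → (∀ x, Measurable (t x)) →
    iIndepFun (fun x o => (w x o, b x o, t x o)) P →
    (∀ x, P.map (fun o => (w x o, b x o, t x o)) = U.prod ((coin p).prod τ)) →
    ∀ᵐ o ∂P, PurePoint (fun x => lam * (if b x o = true then t x o else w x o)) ∧
      AtomicSpectrum (fun x => lam * (if b x o = true then t x o else w x o))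

/-- almost sure localization for `hop + lam V`, `V` iid of law `m` -/
def LocalizedIid (m : Measure ℝ) (lam : ℝ) : Prop :=
  ∀ (Ω : Type) [MeasurableSpace Ω] (P : Measure Ω) [IsProbabilityMeasure P] (V : Site → Ω → ℝ),
    (∀ x, Measurable (V x)) → iIndepFun V P → (∀ x, P.map (V x) = m) →
    ∀ᵐ o ∂P, PurePoint (fun x => lam * V x o) ∧ AtomicSpectrum (fun x => lam * V x o)

/-- `τ` is a probability law with bounded density -/
def Regular (τ : Measure ℝ) : Prop :=
  IsProbabilityMeasure τ ∧ ∃ K : ℝ, τ ≤ ENNReal.ofReal K • volume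

end Vale.Agent.P365.H951
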